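import Vale.Agent.P092.H831.Quad

/-!
P092, Team P, stage 2, block [P2-OPP] (helper831): POLAR SPACES OF ANY RANK.

`Y j` = singular `j`-subspaces of the target (`1 ≤ j ≤ r`, compact), `S j` = those of the source,
`G j X` the calculus of `X : S j` on `Y j`.  If flags commute and are incident, two `j`-subspaces
in a common `(j+1)`-subspace commute and are nowhere equal, and adjacent maximal subspaces commute
and are nowhere equal, then ALL calculi commute, and non perpendicular adjacent subspaces have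
nowhere perpendicular values.  No group, no zero-one law, every field.
-/

set_option linter.all false

namespace Vale.Agent.P092.H831

open Set Topology
open Vale.Agent.P092.H218 (mul_ap)
open Vale.Agent.P092.H232 (two_ind split_inc Nin)

lemma Nin.swap {X Y : Type*} [TopologicalSpace X] [TopologicalSpace Y] {I : X → Y → Prop}
    {J : Y → X → Prop} (h : ∀ x y, I x y → J y x) {u : C(Y, ℂ)} {a : C(X, ℂ)}
    (hn : Nin J u a) : Nin I a u := fun x hx y hy hxy => hn y hy x hx (h x y hxy)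

lemma Nin.mono {X Y : Type*} [TopologicalSpace X] [TopologicalSpace Y] {I J : X → Y → Prop}
    (h : ∀ x y, I x y → J x y) {u : C(X, ℂ)} {a : C(Y, ℂ)}
    (hn : Nin J u a) : Nin I u a := fun x hx y hy hxy => hn x hx y hy (h x y hxy)

section perp

variable {X Y Z K : Type*} [TopologicalSpace X] [CompactSpace X] [T2Space X]
  [TopologicalSpace Y] [CompactSpace Y] [T2Space Y]
  [TopologicalSpace Z] [CompactSpace Z] [T2Space Z]
  [NormedAddCommGroup K] [InnerProductSpace ℂ K] [CompleteSpace K]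

/-- **PERPENDICULARITY PASSES TO THE JOIN.** `φ₁, φ₂` two subspaces, `ψ` their join. -/
theorem perp_join {I : X → Y → Prop} {P₁ : X → Z → Prop} {P₂ : Y → Z → Prop}
    (hI : IsClosed {p : X × Y | I p.1 p.2}) (hP : IsClosed {p : X × Z | P₁ p.1 p.2})
    (geo : ∀ x x' n w, x ≠ x' → I x n → I x' n → P₁ x w → P₁ x' w → P₂ n w)
    {φ₁ φ₂ : C(X, ℂ) →⋆ₐ[ℂ] (K →L[ℂ] K)} {ψ : C(Y, ℂ) →⋆ₐ[ℂ] (K →L[ℂ] K)}
    {τ : C(Z, ℂ) →⋆ₐ[ℂ] (K →L[ℂ] K)} (c : Col φ₁ φ₂) (f₁ : Flg I φ₁ ψ) (f₂ : Flg I φ₂ ψ) {η : K}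
    (h₁ : ∀ a t, Nin P₁ a t → φ₁ a (τ t η) = 0) (h₂ : ∀ a t, Nin P₁ a t → φ₂ a (τ t η) = 0)
    (g : C(Y, ℂ)) (t : C(Z, ℂ)) (hn : Nin P₂ g t) : ψ g (τ t η) = 0 := by
  refine tot_vec φ₁ φ₂ c.agr _ fun a b hab => ?_
  refine two_ind (A := K) (S₁ := tsupport ⇑a) (S₂ := tsupport ⇑b)
    (fun a b => φ₂ b (φ₁ a (ψ g (τ t η))))
    (fun u' u'' a' => by simp only [map_add, add_apply])
    (fun u' a' a'' => by simp only [map_add, add_apply])
    (isClosed_tsupport _).isCompact (isClosed_tsupport _).isCompact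
    (fun x hx y hy => ?_) a b subset_rfl subset_rfl
  have hxy : x ≠ y := fun e => disjoint_left.1 hab hx (e ▸ hy)
  -- commutation in vector form
  have k12 : ∀ a b ζ, φ₂ b (φ₁ a ζ) = φ₁ a (φ₂ b ζ) := fun a b ζ => by
    have := congrArg (fun T : K →L[ℂ] K => T ζ) (c.com a b).eq
    simpa [mul_ap] using this.symm
  have k1 : ∀ a g ζ, φ₁ a (ψ g ζ) = ψ g (φ₁ a ζ) := fun a g ζ => by
    have := congrArg (fun T : K →L[ℂ] K => T ζ) (f₁.com a g).eq
    simpa [mul_ap] using this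
  have k2 : ∀ a g ζ, φ₂ a (ψ g ζ) = ψ g (φ₂ a ζ) := fun a g ζ => by
    have := congrArg (fun T : K →L[ℂ] K => T ζ) (f₂.com a g).eq
    simpa [mul_ap] using this
  have z1 : ∀ a g ζ, Nin I a g → φ₁ a (ψ g ζ) = 0 := fun a g ζ h => by
    have := congrArg (fun T : K →L[ℂ] K => T ζ) (f₁.inc a g h)
    simpa [mul_ap] using this
  have z2 : ∀ a g ζ, Nin I a g → φ₂ a (ψ g ζ) = 0 := fun a g ζ h => by
    have := congrArg (fun T : K →L[ℂ] K => T ζ) (f₂.inc a g h)
    simpa [mul_ap] using this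
  by_cases hc : ∀ n ∈ tsupport ⇑g, I x n → I y n → False
  · obtain ⟨g₁, g₂, hg, O, V, hO, hxO, hV, hyV, e1, e2⟩ := split_inc hI hI g hc
    refine ⟨O, V, hO, hxO, hV, hyV, fun a' b' ha' hb' => ?_⟩
    rw [hg, map_add, add_apply, map_add, map_add, z1 _ _ _ (e1 _ ha'), k12 a' b' (ψ g₂ _),
      z2 _ _ _ (e2 _ hb'), map_zero, map_zero, add_zero]
  · push Not at hc
    obtain ⟨n, hng, hxn, hyn, -⟩ := hc
    obtain ⟨t₁, t₂, ht, O, V, hO, hxO, hV, hyV, e1, e2⟩ := split_inc hP hP (x := x) (y := y) t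
      fun w hw h3 h4 => hn n hng w hw (geo x y n w hxy hxn hyn h3 h4)
    refine ⟨O, V, hO, hxO, hV, hyV, fun a' b' ha' hb' => ?_⟩
    have s1 : φ₂ b' (φ₁ a' (ψ g (τ t₁ η))) = 0 := by
      rw [k1, h₁ _ _ (e1 _ ha'), map_zero, map_zero]
    have s2 : φ₂ b' (φ₁ a' (ψ g (τ t₂ η))) = 0 := by
      rw [k12, k2, h₂ _ _ (e2 _ hb'), map_zero, map_zero]
    rw [ht, map_add, add_apply, map_add, map_add, map_add, s1, s2, add_zero]

end perp

section pol

/-- The target. `I j` inclusion of dimensions `j`, `j + 1`; `O i j` perpendicularity. -/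
structure PolT (r : ℕ) (Y : ℕ → Type*) [∀ j, TopologicalSpace (Y j)]
    (I : ∀ j, Y j → Y (j + 1) → Prop) (O : ∀ i j, Y i → Y j → Prop) : Prop where
  iclosed : ∀ j, 1 ≤ j → j < r → IsClosed {q : Y j × Y (j + 1) | I j q.1 q.2}
  oclosed : ∀ i j, 1 ≤ i → i ≤ r → 1 ≤ j → j ≤ r → IsClosed {q : Y i × Y j | O i j q.1 q.2}
  uniq : ∀ j, 1 ≤ j → j < r → ∀ x x' y y', x ≠ x' → I j x y → I j x' y → I j x y' → I j x' y' →
    y = y'
  join : ∀ i j, 1 ≤ i → i < r → 1 ≤ j → j ≤ r → ∀ (x x' : Y i) (n : Y (i + 1)) (w : Y j),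
    x ≠ x' → I i x n → I i x' n → O i j x w → O i j x' w → O (i + 1) j n w
  symm : ∀ i j, 1 ≤ i → i ≤ r → 1 ≤ j → j ≤ r → ∀ x y, O i j x y → O j i y x
  sing : ∀ j, 1 ≤ j → j ≤ r → ∀ x : Y j, O j j x x
  mono : ∀ i j, 1 ≤ i → i < r → 1 ≤ j → j ≤ r → ∀ (x : Y i) (n : Y (i + 1)) (w : Y j),
    I i x n → O (i + 1) j n w → O i j x w
  max : ∀ x y : Y r, O r r x y → x = y

/-- The source. `R j` inclusion; `P j` perpendicularity; `A j` adjacency (a common subspace of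
dimension `j - 1`). -/
structure PolS (r : ℕ) (S : ℕ → Type*) (R : ∀ j, S j → S (j + 1) → Prop)
    (P A : ∀ j, S j → S j → Prop) : Prop where
  adj1 : ∀ B B' : S 1, A 1 B B'
  adj : ∀ j, 1 ≤ j → j < r → ∀ (C : S j) (N N' : S (j + 1)), R j C N → R j C N' →
    A (j + 1) N N'
  refl : ∀ j (B : S j), P j B B
  sing : ∀ j, 1 ≤ j → j < r → ∀ (B B' : S j) (N : S (j + 1)), R j B N → R j B' N → P j B B'
  col : ∀ j, 1 ≤ j → j < r → ∀ B B' : S j, A j B B' → B ≠ B' → P j B B' →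
    ∃ N, R j B N ∧ R j B' N
  sq : ∀ j, 1 ≤ j → j < r → ∀ B B' : S j, A j B B' → ¬ P j B B' →
    ∃ C C' : S j, ∃ N N' M M' : S (j + 1), R j B N ∧ R j C N ∧ R j B' N' ∧ R j C N' ∧
      R j B M ∧ R j C' M ∧ R j B' M' ∧ R j C' M' ∧ ¬ P (j + 1) N M ∧ ¬ P (j + 1) N' M' ∧
      ¬ P (j + 1) N N'
  two : ∀ j, 1 ≤ j → j < r → ∀ X : S (j + 1), ∃ C C' : S j, C ≠ C' ∧ R j C X ∧ R j C' X

variable {r : ℕ} {Y : ℕ → Type*} [∀ j, TopologicalSpace (Y j)] [∀ j, CompactSpace (Y j)]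
  [∀ j, T2Space (Y j)] {I : ∀ j, Y j → Y (j + 1) → Prop} {O : ∀ i j, Y i → Y j → Prop}
  {S : ℕ → Type*} {R : ∀ j, S j → S (j + 1) → Prop} {P A : ∀ j, S j → S j → Prop}
  {K : Type*} [NormedAddCommGroup K] [InnerProductSpace ℂ K] [CompleteSpace K]

/-- The calculi. -/
structure PolF (r : ℕ) (I : ∀ j, Y j → Y (j + 1) → Prop) (R : ∀ j, S j → S (j + 1) → Prop)
    (A : ∀ j, S j → S j → Prop) (G : ∀ j, S j → (C(Y j, ℂ) →⋆ₐ[ℂ] (K →L[ℂ] K))) : Prop where
  flg : ∀ j, 1 ≤ j → j < r → ∀ B N, R j B N → Flg (I j) (G j B) (G (j + 1) N)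
  col : ∀ j, 1 ≤ j → j < r → ∀ B B' N, B ≠ B' → R j B N → R j B' N → Col (G j B) (G j B')
  top : ∀ B B' : S r, B ≠ B' → A r B B' → Col (G r B) (G r B')

variable {G : ∀ j, S j → (C(Y j, ℂ) →⋆ₐ[ℂ] (K →L[ℂ] K))}

lemma PolT.ort_of_inc (hT : PolT r Y I O) {j : ℕ} (h1 : 1 ≤ j) (h2 : j < r) {x : Y j}
    {n : Y (j + 1)} (h : I j x n) : O j (j + 1) x n :=
  hT.mono j (j + 1) h1 h2 (by omega) (by omega) x n n h (hT.sing (j + 1) (by omega) (by omega) n)

lemma PolT.ort_of_line (hT : PolT r Y I O) {j : ℕ} (h1 : 1 ≤ j) (h2 : j < r) {x z : Y j}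
    (h : ∃ n, I j x n ∧ I j z n) : O j j x z := by
  obtain ⟨n, hx, hz⟩ := h
  have e1 := hT.symm _ _ (by omega) (by omega) (by omega) (by omega) _ _
    (hT.ort_of_inc h1 h2 hz)
  exact hT.mono j j h1 h2 h1 (by omega) x n z hx e1

lemma comm_self' {X : Type*} [TopologicalSpace X] [CompactSpace X]
    (b : C(X, ℂ) →⋆ₐ[ℂ] (K →L[ℂ] K)) (u v : C(X, ℂ)) : Commute (b u) (b v) := by
  change b u * b v = b v * b u
  rw [← map_mul, ← map_mul, mul_comm]

/-- The downward induction. -/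
theorem PolF.adj (hT : PolT r Y I O) (hS : PolS r S R P A) (hF : PolF r I R A G) :
    ∀ d j, 1 ≤ j → j + d = r → ∀ B B' : S j, A j B B' →
      (∀ f f', Commute (G j B f) (G j B' f')) ∧
      (¬ P j B B' → ∀ η, (∀ g h, Nin (O j j) g h → G j B' h (G j B g η) = 0) → η = 0) := by
  intro d
  induction d with
  | zero =>
    intro j h1 hj B B' hA
    have hj' : j = r := by omega
    subst hj'
    by_cases hB : B = B'
    · subst hB
      exact ⟨comm_self' _, fun hP => absurd (hS.refl j B) hP⟩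
    · refine ⟨(hF.top B B' hB hA).com, fun _ η h => ?_⟩
      exact tot_vec (G j B) (G j B') (hF.top B B' hB hA).agr η fun a b hab =>
        h a b fun x hx y hy hxy => disjoint_left.1 hab hx (hT.max x y hxy ▸ hy)
  | succ d ih =>
    intro j h1 hj B B' hA
    have h2 : j < r := by omega
    by_cases hB : B = B'
    · subst hB
      exact ⟨comm_self' _, fun hP => absurd (hS.refl j B) hP⟩
    by_cases hP : P j B B'
    · obtain ⟨N, n1, n2⟩ := hS.col j h1 h2 B B' hA hB hP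
      exact ⟨(hF.col j h1 h2 B B' N hB n1 n2).com, fun h => absurd hP h⟩
    obtain ⟨C, C', N, N', M, M', bN, cN, bN', cN', bM, cM, bM', cM', pNM, pNM', pNN⟩ :=
      hS.sq j h1 h2 B B' hA hP
    have e1 : B ≠ C := fun e => hP (hS.sing j h1 h2 B B' N' (e ▸ cN') bN')
    have e2 : B' ≠ C := fun e => hP (hS.sing j h1 h2 B B' N bN (e ▸ cN))
    have e3 : B ≠ C' := fun e => hP (hS.sing j h1 h2 B B' M' (e ▸ cM') bM')
    have e4 : B' ≠ C' := fun e => hP (hS.sing j h1 h2 B B' M bM (e ▸ cM))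
    have c₁ := hF.col j h1 h2 B C N e1 bN cN
    have c₂ := hF.col j h1 h2 B' C N' e2 bN' cN'
    have c₃ := hF.col j h1 h2 B C' M e3 bM cM
    have c₄ := hF.col j h1 h2 B' C' M' e4 bM' cM'
    have f₁ := hF.flg j h1 h2 B N bN
    have f₂ := hF.flg j h1 h2 C N cN
    have f₃ := hF.flg j h1 h2 B' N' bN'
    have f₄ := hF.flg j h1 h2 C N' cN'
    have f₅ := hF.flg j h1 h2 B M bM
    have f₆ := hF.flg j h1 h2 C' M cM
    have f₇ := hF.flg j h1 h2 B' M' bM'
    have f₈ := hF.flg j h1 h2 C' M' cM'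
    have ihN := ih (j + 1) (by omega) (by omega) N N' (hS.adj j h1 h2 C N N' cN cN')
    have ihM := ih (j + 1) (by omega) (by omega) N M (hS.adj j h1 h2 B N M bN bM)
    have ihM' := ih (j + 1) (by omega) (by omega) N' M' (hS.adj j h1 h2 B' N' M' bN' bM')
    have hic := hT.iclosed j h1 h2
    have ho : IsClosed {q : Y j × Y j | O j j q.1 q.2} :=
      hT.oclosed j j h1 h2.le h1 h2.le
    have hol : IsClosed {q : Y j × Y (j + 1) | O j (j + 1) q.1 q.2} :=
      hT.oclosed j (j + 1) h1 h2.le (by omega) (by omega)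
    have sm : ∀ i l, 1 ≤ i → i ≤ r → 1 ≤ l → l ≤ r → ∀ x y, O i l x y → O l i y x := hT.symm
    have g1 := hT.uniq j h1 h2
    have g2 : ∀ (x x' z : Y j) (n : Y (j + 1)), ¬ O j (j + 1) z n → O j j x z → O j j x' z →
        I j x n → I j x' n → x = x' := by
      intro x x' z n hzn h3 h4 h5 h6
      by_contra hxx
      exact hzn (sm _ _ (by omega) (by omega) (by omega) (by omega) _ _
        (hT.join j j h1 h2 h1 h2.le x x' n z hxx h5 h6 h3 h4))
    have g3 : ∀ (x z : Y j) (n₁ n₂ : Y (j + 1)), x ≠ z → I j x n₁ → I j x n₂ → I j z n₂ →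
        O j (j + 1) z n₁ → O (j + 1) (j + 1) n₁ n₂ := by
      intro x z n₁ n₂ hxz h3 h4 h5 h6
      exact sm _ _ (by omega) (by omega) (by omega) (by omega) _ _
        (hT.join j (j + 1) h1 h2 (by omega) (by omega) x z n₂ n₁ hxz h4 h5
          (hT.ort_of_inc h1 h2 h3) h6)
    have pl : ∀ {b c : C(Y j, ℂ) →⋆ₐ[ℂ] (K →L[ℂ] K)} {l : C(Y (j + 1), ℂ) →⋆ₐ[ℂ] (K →L[ℂ] K)},
        Flg (I j) b l → Flg (I j) c l → ∀ u k, Nin (O j j) u k → b u * c k = 0 :=
      fun h3 h4 u k h => perp_of_line hic h3 h4 u k (Nin.mono (fun x z hxz =>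
        hT.ort_of_line h1 h2 hxz) h)
    have hd3 : ∀ g v, Commute (G (j + 1) N g) (G j B' v) :=
      dist3_comm hic ho hol g1 g2 g3 (G j B) (G j B') (G j C) (G j C') (G (j + 1) N)
        (G (j + 1) N') (G (j + 1) M') c₁ c₂ c₃ c₄ f₁ f₂ f₃ f₄ f₇ f₈ ihN.1 (pl f₇ f₈)
        (ihM'.2 pNM')
    have hcom : ∀ u v, Commute (G j B u) (G j B' v) :=
      opp_comm hic ho hol g1 g2 g3 (G j B) (G j B') (G j C) (G j C') (G (j + 1) N)
        (G (j + 1) N') (G (j + 1) M) (G (j + 1) M') c₁ c₂ c₃ c₄ f₁ f₂ f₃ f₄ f₅ f₆ f₇ f₈ ihN.1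
        (pl f₅ f₆) (pl f₇ f₈) (ihM.2 pNM) (ihM'.2 pNM')
    refine ⟨hcom, fun _ η hη => ?_⟩
    -- `z_N ⊥ z_B'`
    have s1 : ∀ (g : C(Y (j + 1), ℂ)) (t : C(Y j, ℂ)), Nin (O (j + 1) j) g t →
        G (j + 1) N g (G j B' t η) = 0 := by
      refine perp_join (I := I j) (P₁ := O j j) (P₂ := O (j + 1) j) hic ho
        (fun x x' n w => hT.join j j h1 h2 h1 h2.le x x' n w) c₁ f₁ f₂ (fun a t h => ?_)
        (fun a t h => ?_)
      · have := hη a t h
        have e := congrArg (fun T : K →L[ℂ] K => T η) (hcom a t).eq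
        simp only [mul_ap] at e
        rw [e, this]
      · have := congrArg (fun T : K →L[ℂ] K => T η) (pl f₄ f₃ a t h)
        simpa [mul_ap] using this
    -- `z_N ⊥ z_N'`
    have s2 : ∀ (g : C(Y (j + 1), ℂ)) (t : C(Y (j + 1), ℂ)), Nin (O (j + 1) (j + 1)) g t →
        G (j + 1) N' g (G (j + 1) N t η) = 0 := by
      refine perp_join (I := I j) (P₁ := O j (j + 1)) (P₂ := O (j + 1) (j + 1)) hic hol
        (fun x x' n w => hT.join j (j + 1) h1 h2 (by omega) (by omega) x x' n w) c₂ f₃ f₄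
        (fun a t h => ?_) (fun a t h => ?_)
      · have := s1 t a (Nin.swap (fun x y h => sm _ _ (by omega) (by omega) (by omega)
          (by omega) x y h) h)
        have e := congrArg (fun T : K →L[ℂ] K => T η) (hd3 t a).eq
        simp only [mul_ap] at e
        rw [← e, this]
      · have := congrArg (fun T : K →L[ℂ] K => T η) (f₂.inc a t (Nin.mono (fun x n hxn =>
          hT.ort_of_inc h1 h2 hxn) h))
        simpa [mul_ap] using this
    exact ihN.2 pNN η fun g h hgh => s2 h g (Nin.swap (fun x y h => sm _ _ (by omega)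
      (by omega) (by omega) (by omega) x y h) hgh)

/-- An operator which commutes with all points commutes with everything. -/
theorem PolF.of_pts (hT : PolT r Y I O) (hS : PolS r S R P A) (hF : PolF r I R A G)
    {W : K →L[ℂ] K} (hW : ∀ c f, Commute W (G 1 c f)) :
    ∀ j, 1 ≤ j → j ≤ r → ∀ X f, Commute W (G j X f) := by
  intro j h1
  induction j, h1 using Nat.le_induction with
  | base => exact fun _ => hW
  | succ j h1 ih =>
    intro h2 X f
    obtain ⟨C, C', hCC, hC, hC'⟩ := hS.two j h1 (by omega) X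
    have c := hF.col j h1 (by omega) C C' X hCC hC hC'
    have f₁ := hF.flg j h1 (by omega) C X hC
    have f₂ := hF.flg j h1 (by omega) C' X hC'
    exact join_comm (hT.iclosed j h1 (by omega)) (hT.uniq j h1 (by omega)) _ _ _ c.com f₁.com
      f₂.com f₁.inc f₂.inc c.agr W (fun u => ih (by omega) C u) (fun u => ih (by omega) C' u) f

/-- **[P2-OPP]: ALL CALCULI COMMUTE.** -/
theorem PolF.all (hT : PolT r Y I O) (hS : PolS r S R P A) (hF : PolF r I R A G) (hr : 1 ≤ r) :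
    ∀ i j, 1 ≤ i → i ≤ r → 1 ≤ j → j ≤ r → ∀ (X : S i) (X' : S j) f f',
      Commute (G i X f) (G j X' f') := by
  have pts : ∀ (c c' : S 1) f f', Commute (G 1 c f) (G 1 c' f') := fun c c' =>
    (PolF.adj hT hS hF (r - 1) 1 le_rfl (by omega) c c' (hS.adj1 c c')).1
  have h1 : ∀ (c : S 1) f, ∀ j, 1 ≤ j → j ≤ r → ∀ (X : S j) f', Commute (G 1 c f) (G j X f') :=
    fun c f => PolF.of_pts hT hS hF fun c' f' => pts c c' f f'
  intro i j hi hi' hj hj' X X' f f'
  exact PolF.of_pts hT hS hF (fun c f' => (h1 c f' i hi hi' X f).symm) j hj hj' X' f'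

/-- Non perpendicular adjacent subspaces have nowhere perpendicular values. -/
theorem PolF.nowhere (hT : PolT r Y I O) (hS : PolS r S R P A) (hF : PolF r I R A G) {j : ℕ}
    (h1 : 1 ≤ j) (h2 : j ≤ r) {B B' : S j} (hA : A j B B') (hP : ¬ P j B B') {η : K}
    (h : ∀ g h, Nin (O j j) g h → G j B' h (G j B g η) = 0) : η = 0 :=
  (PolF.adj hT hS hF (r - j) j h1 (by omega) B B' hA).2 hP η h

end pol

end Vale.Agent.P092.H831
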