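import Vale.Agent.P092.H232.Join

/-!
P092, Team P (helper831): OPPOSITE POINTS COMMUTE.

Any generalised quadrangle, and any polar space of rank at least two, over any field: if collinear
points commute and meeting lines commute (with exact incidence and nowhere-agreement), then
opposite points commute.  `b, b'` are opposite source points, `c, c'` two common neighbours,
`nu = bc`, `nu' = b'c`, `mu = bc'`, `mu' = b'c'` the four lines.  Target: compact Hausdorff spaces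
`X` of points and `Y` of lines, closed relations, no group.
-/

set_option linter.all false

namespace Vale.Agent.P092.H831

open Set Topology
open Vale.Agent.P092.H218 (loc loc_op mul_ap)
open Vale.Agent.P092.H232 (two_ind split_inc Nin)

section gen

variable {X Y K : Type*} [TopologicalSpace X] [CompactSpace X] [T2Space X]
  [TopologicalSpace Y] [CompactSpace Y] [T2Space Y]
  [NormedAddCommGroup K] [InnerProductSpace ℂ K] [CompleteSpace K]

lemma ts_star (f : C(X, ℂ)) : tsupport ⇑(star f) = tsupport ⇑f := by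
  unfold tsupport
  congr 1
  ext x; simp [Function.mem_support]

/-- Totality from nowhere-agreement, vector form. -/
lemma tot_vec (β γ : C(X, ℂ) →⋆ₐ[ℂ] (K →L[ℂ] K))
    (agr : ∀ ξ, (∀ f, β f ξ = γ f ξ) → ξ = 0) (η : K)
    (h : ∀ a b : C(X, ℂ), Disjoint (tsupport ⇑a) (tsupport ⇑b) → γ b (β a η) = 0) : η = 0 := by
  refine agr η fun f => ?_
  have := loc γ β (1 : K →L[ℂ] K) η (fun a b hab => by simpa using h b a hab.symm) f
  simpa using this

/-- Totality, left form. -/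
lemma tot_left (β γ : C(X, ℂ) →⋆ₐ[ℂ] (K →L[ℂ] K))
    (agr : ∀ ξ, (∀ f, β f ξ = γ f ξ) → ξ = 0) (T : K →L[ℂ] K)
    (h : ∀ a b : C(X, ℂ), Disjoint (tsupport ⇑a) (tsupport ⇑b) → γ b * β a * T = 0) : T = 0 := by
  ext ξ
  refine tot_vec β γ agr (T ξ) fun a b hab => ?_
  have := congrArg (fun S : K →L[ℂ] K => S ξ) (h a b hab)
  simpa [mul_ap] using this

/-- Totality, right form. -/
lemma tot_right (β γ : C(X, ℂ) →⋆ₐ[ℂ] (K →L[ℂ] K))
    (agr : ∀ ξ, (∀ f, β f ξ = γ f ξ) → ξ = 0) (T : K →L[ℂ] K)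
    (h : ∀ a b : C(X, ℂ), Disjoint (tsupport ⇑a) (tsupport ⇑b) → T * β a * γ b = 0) : T = 0 := by
  have h1 : star T = 0 := by
    refine tot_left β γ agr _ fun a b hab => ?_
    have h2 := h (star a) (star b) (by rw [ts_star, ts_star]; exact hab)
    have h3 := congrArg star h2
    simp only [star_mul, map_star, star_star, star_zero] at h3
    rw [mul_assoc]; exact h3
  have := congrArg star h1
  rwa [star_star, star_zero] at this

/-- **THE JOIN LEMMA.** An operator which commutes with two collinear points commutes with their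
line. -/
theorem join_comm {Inc : X → Y → Prop} (hInc : IsClosed {p : X × Y | Inc p.1 p.2})
    (hgeo : ∀ x x' y y', x ≠ x' → Inc x y → Inc x' y → Inc x y' → Inc x' y' → y = y')
    (β γ : C(X, ℂ) →⋆ₐ[ℂ] (K →L[ℂ] K)) (ν : C(Y, ℂ) →⋆ₐ[ℂ] (K →L[ℂ] K))
    (cβγ : ∀ u v, Commute (β u) (γ v))
    (cβ : ∀ u g, Commute (β u) (ν g)) (cγ : ∀ u g, Commute (γ u) (ν g))
    (iβ : ∀ u g, Nin Inc u g → β u * ν g = 0) (iγ : ∀ u g, Nin Inc u g → γ u * ν g = 0)
    (agr : ∀ ξ, (∀ f, β f ξ = γ f ξ) → ξ = 0) (W : K →L[ℂ] K)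
    (h1 : ∀ u, Commute W (β u)) (h2 : ∀ u, Commute W (γ u)) (g : C(Y, ℂ)) :
    Commute W (ν g) := by
  have main : ∀ a b : C(Y, ℂ), Disjoint (tsupport ⇑a) (tsupport ⇑b) → ν a * W * ν b = 0 := by
    intro a b hab
    refine tot_right β γ agr _ fun u v huv => ?_
    refine two_ind (A := K →L[ℂ] K) (S₁ := tsupport ⇑u) (S₂ := tsupport ⇑v)
      (fun u v => ν a * W * ν b * β u * γ v)
      (fun u' u'' a' => by simp only [map_add, add_mul, mul_add])
      (fun u' a' a'' => by simp only [mul_add, map_add, add_mul])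
      (isClosed_tsupport _).isCompact (isClosed_tsupport _).isCompact
      (fun x hx z hz => ?_) u v subset_rfl subset_rfl
    have hxz : x ≠ z := fun e => disjoint_left.1 huv hx (e ▸ hz)
    by_cases hc : ∀ n ∈ tsupport ⇑a, Inc x n → Inc z n → False
    · obtain ⟨a₁, a₂, ha, O, V, hO, hxO, hV, hzV, e1, e2⟩ := split_inc hInc hInc a hc
      refine ⟨O, V, hO, hxO, hV, hzV, fun u' v' hu' hv' => ?_⟩
      have f1 : β u' * ν a₁ = 0 := iβ _ _ (e1 _ hu')
      have f2 : γ v' * ν a₂ = 0 := iγ _ _ (e2 _ hv')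
      have g1 : ν a₁ * W * ν b * β u' * γ v' = 0 := by
        have : ν a₁ * W * ν b * β u' = β u' * (ν a₁ * W * ν b) :=
          (((cβ u' a₁).mul_right (h1 u').symm).mul_right (cβ u' b)).symm.eq
        rw [this, ← mul_assoc, ← mul_assoc, f1, zero_mul, zero_mul, zero_mul]
      have g2 : ν a₂ * W * ν b * β u' * γ v' = 0 := by
        have : ν a₂ * W * ν b * β u' * γ v' = γ v' * (ν a₂ * W * ν b * β u') :=
          ((((cγ v' a₂).mul_right (h2 v').symm).mul_right (cγ v' b)).mul_right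
            (cβγ u' v').symm).symm.eq
        rw [this, ← mul_assoc, ← mul_assoc, ← mul_assoc, f2, zero_mul, zero_mul, zero_mul]
      rw [ha, map_add, add_mul, add_mul, add_mul, add_mul, g1, g2, add_zero]
    · push Not at hc
      obtain ⟨n₀, hn₀, hx0, hz0, -⟩ := hc
      have hb : ∀ n ∈ tsupport ⇑b, Inc x n → Inc z n → False := by
        intro n hn h3 h4
        rw [hgeo x z n n₀ hxz h3 h4 hx0 hz0] at hn
        exact disjoint_left.1 hab hn₀ hn
      obtain ⟨b₁, b₂, hb', O, V, hO, hxO, hV, hzV, e1, e2⟩ := split_inc hInc hInc b hb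
      refine ⟨O, V, hO, hxO, hV, hzV, fun u' v' hu' hv' => ?_⟩
      have f1 : ν b₁ * β u' = 0 := by rw [← (cβ u' b₁).eq]; exact iβ _ _ (e1 _ hu')
      have f2 : ν b₂ * γ v' = 0 := by rw [← (cγ v' b₂).eq]; exact iγ _ _ (e2 _ hv')
      have g1 : ν a * W * ν b₁ * β u' * γ v' = 0 := by
        rw [mul_assoc (ν a * W), f1, mul_zero, zero_mul]
      have g2 : ν a * W * ν b₂ * β u' * γ v' = 0 := by
        rw [mul_assoc (ν a * W * ν b₂), (cβγ u' v').eq, ← mul_assoc, mul_assoc (ν a * W), f2,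
          mul_zero, zero_mul]
      rw [hb', map_add, mul_add, add_mul, add_mul, g1, g2, add_zero]
  have := loc_op ν ν W (fun a b hab => main a b hab) g
  exact this

end gen

/-! ### The central projections -/

section proj

variable {X K : Type*} [TopologicalSpace X] [CompactSpace X] [T2Space X]
  [NormedAddCommGroup K] [InnerProductSpace ℂ K] [CompleteSpace K]

/-- The commutant of `β` and `β'`. -/
def Com (β β' : C(X, ℂ) →⋆ₐ[ℂ] (K →L[ℂ] K)) (A : K →L[ℂ] K) : Prop :=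
  (∀ u, Commute A (β u)) ∧ ∀ u, Commute A (β' u)

/-- The generating vectors `A (γ g ξ)`, `supp g` in `U`, `A` in the commutant. -/
def Gn (β β' γ : C(X, ℂ) →⋆ₐ[ℂ] (K →L[ℂ] K)) (U : Set X) : Set K :=
  {ζ | ∃ A, Com β β' A ∧ ∃ g : C(X, ℂ), tsupport ⇑g ⊆ U ∧ ∃ ξ, ζ = A (γ g ξ)}

/-- The closed subspace spanned by them. -/
noncomputable def Nn (β β' γ : C(X, ℂ) →⋆ₐ[ℂ] (K →L[ℂ] K)) (U : Set X) : Submodule ℂ K :=
  (Submodule.span ℂ (Gn β β' γ U)).topologicalClosure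

instance (β β' γ : C(X, ℂ) →⋆ₐ[ℂ] (K →L[ℂ] K)) (U : Set X) :
    CompleteSpace (Nn β β' γ U) :=
  (Submodule.isClosed_topologicalClosure _).completeSpace_coe

/-- The projection on it. -/
noncomputable def Rp (β β' γ : C(X, ℂ) →⋆ₐ[ℂ] (K →L[ℂ] K)) (U : Set X) : K →L[ℂ] K :=
  (Nn β β' γ U).starProjection

/-- A continuous linear map which maps the generators into a closed subspace. -/
lemma maps_Nn {β β' γ : C(X, ℂ) →⋆ₐ[ℂ] (K →L[ℂ] K)} {U : Set X} (T : K →L[ℂ] K)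
    {M : Submodule ℂ K} (hM : IsClosed (M : Set K)) (h : ∀ ζ ∈ Gn β β' γ U, T ζ ∈ M) :
    ∀ ζ ∈ Nn β β' γ U, T ζ ∈ M := by
  intro ζ hζ
  have h1 : Submodule.span ℂ (Gn β β' γ U) ≤ M.comap (T : K →ₗ[ℂ] K) :=
    Submodule.span_le.2 fun ζ hζ => h ζ hζ
  have h2 : Nn β β' γ U ≤ M.comap (T : K →ₗ[ℂ] K) :=
    Submodule.topologicalClosure_minimal _ h1 (hM.preimage T.continuous)
  exact h2 hζ

lemma comm_of_inv (N : Submodule ℂ K) [N.HasOrthogonalProjection] (T : K →L[ℂ] K)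
    (h1 : ∀ ζ ∈ N, T ζ ∈ N) (h2 : ∀ ζ ∈ N, (star T) ζ ∈ N) :
    Commute T N.starProjection := by
  ext ξ
  have e : ξ = N.starProjection ξ + (ξ - N.starProjection ξ) := by abel
  set p := N.starProjection ξ with hp
  have hpN : p ∈ N := N.starProjection_apply_mem ξ
  have hq : ξ - p ∈ Nᗮ := N.sub_starProjection_mem_orthogonal ξ
  have hTq : T (ξ - p) ∈ Nᗮ := by
    rw [Submodule.mem_orthogonal]
    intro u hu
    have h3 := (Submodule.mem_orthogonal N (ξ - p)).1 hq _ (h2 u hu)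
    rwa [ContinuousLinearMap.star_eq_adjoint, ContinuousLinearMap.adjoint_inner_left] at h3
  have h4 : N.starProjection (T ξ) = T p := by
    have : T ξ = T p + T (ξ - p) := by
      rw [← map_add]; exact congrArg T e
    rw [this, map_add, Submodule.starProjection_eq_self_iff.2 (h1 p hpN),
      (Submodule.starProjection_apply_eq_zero_iff N).2 hTq, add_zero]
  rw [mul_ap, mul_ap, h4]

variable {β β' γ : C(X, ℂ) →⋆ₐ[ℂ] (K →L[ℂ] K)} {U : Set X}

lemma comm_Rp_of {T : K →L[ℂ] K} (h1 : ∀ ζ ∈ Gn β β' γ U, T ζ ∈ Gn β β' γ U)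
    (h2 : ∀ ζ ∈ Gn β β' γ U, (star T) ζ ∈ Gn β β' γ U) : Commute T (Rp β β' γ U) := by
  have hc : IsClosed ((Nn β β' γ U : Submodule ℂ K) : Set K) :=
    Submodule.isClosed_topologicalClosure _
  have hs : ∀ ζ ∈ Gn β β' γ U, ζ ∈ Nn β β' γ U := fun ζ hζ =>
    Submodule.le_topologicalClosure _ (Submodule.subset_span hζ)
  exact comm_of_inv _ T (maps_Nn T hc fun ζ hζ => hs _ (h1 ζ hζ))
    (maps_Nn (star T) hc fun ζ hζ => hs _ (h2 ζ hζ))

/-- `β` commutes with the projections. -/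
lemma comm_Rp_left (cγ : ∀ u v, Commute (γ u) (β v)) (u : C(X, ℂ)) :
    Commute (β u) (Rp β β' γ U) := by
  have key : ∀ u : C(X, ℂ), ∀ ζ ∈ Gn β β' γ U, β u ζ ∈ Gn β β' γ U := by
    rintro u _ ⟨A, hA, g, hg, ξ, rfl⟩
    refine ⟨A, hA, g, hg, β u ξ, ?_⟩
    have e1 := congrArg (fun S : K →L[ℂ] K => S (γ g ξ)) (hA.1 u).eq
    have e2 := congrArg (fun S : K →L[ℂ] K => S ξ) (cγ g u).eq
    simp only [mul_ap] at e1 e2
    rw [← e1, ← e2]
  exact comm_Rp_of (key u) (by rw [← map_star]; exact key (star u))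

/-- `β'` commutes with the projections. -/
lemma comm_Rp_right (cγ : ∀ u v, Commute (γ u) (β' v)) (u : C(X, ℂ)) :
    Commute (β' u) (Rp β β' γ U) := by
  have key : ∀ u : C(X, ℂ), ∀ ζ ∈ Gn β β' γ U, β' u ζ ∈ Gn β β' γ U := by
    rintro u _ ⟨A, hA, g, hg, ξ, rfl⟩
    refine ⟨A, hA, g, hg, β' u ξ, ?_⟩
    have e1 := congrArg (fun S : K →L[ℂ] K => S (γ g ξ)) (hA.2 u).eq
    have e2 := congrArg (fun S : K →L[ℂ] K => S ξ) (cγ g u).eq
    simp only [mul_ap] at e1 e2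
    rw [← e1, ← e2]
  exact comm_Rp_of (key u) (by rw [← map_star]; exact key (star u))

/-- The commutant commutes with the projections. -/
lemma comm_Rp_com {T : K →L[ℂ] K} (h1 : Com β β' T) (h2 : Com β β' (star T)) :
    Commute T (Rp β β' γ U) := by
  have key : ∀ T : K →L[ℂ] K, Com β β' T → ∀ ζ ∈ Gn β β' γ U, T ζ ∈ Gn β β' γ U := by
    rintro T hT _ ⟨A, hA, g, hg, ξ, rfl⟩
    exact ⟨T * A, ⟨fun u => (hT.1 u).mul_left (hA.1 u), fun u => (hT.2 u).mul_left (hA.2 u)⟩,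
      g, hg, ξ, rfl⟩
  exact comm_Rp_of (key T h1) (key _ h2)

/-- Localisation, `β`. -/
lemma mul_Rp_left {u : C(X, ℂ)}
    (h : ∀ k : C(X, ℂ), tsupport ⇑k ⊆ U → β u * γ k = 0) : β u * Rp β β' γ U = 0 := by
  have hz : ∀ ζ ∈ Nn β β' γ U, β u ζ ∈ (⊥ : Submodule ℂ K) := by
    refine maps_Nn _ (by simpa using isClosed_singleton) ?_
    rintro _ ⟨A, hA, g, hg, ξ, rfl⟩
    have e1 := congrArg (fun S : K →L[ℂ] K => S (γ g ξ)) (hA.1 u).eq
    have e2 := congrArg (fun S : K →L[ℂ] K => S ξ) (h g hg)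
    simp only [mul_ap] at e1 e2
    rw [← e1, e2]; simp
  ext ξ
  exact (Submodule.mem_bot ℂ).1 (hz _ ((Nn β β' γ U).starProjection_apply_mem ξ))

/-- Localisation, `β'`. -/
lemma mul_Rp_right {u : C(X, ℂ)}
    (h : ∀ k : C(X, ℂ), tsupport ⇑k ⊆ U → β' u * γ k = 0) : β' u * Rp β β' γ U = 0 := by
  have hz : ∀ ζ ∈ Nn β β' γ U, β' u ζ ∈ (⊥ : Submodule ℂ K) := by
    refine maps_Nn _ (by simpa using isClosed_singleton) ?_
    rintro _ ⟨A, hA, g, hg, ξ, rfl⟩
    have e1 := congrArg (fun S : K →L[ℂ] K => S (γ g ξ)) (hA.2 u).eq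
    have e2 := congrArg (fun S : K →L[ℂ] K => S ξ) (h g hg)
    simp only [mul_ap] at e1 e2
    rw [← e1, e2]; simp
  ext ξ
  exact (Submodule.mem_bot ℂ).1 (hz _ ((Nn β β' γ U).starProjection_apply_mem ξ))

/-- `R_U γ(k) = γ(k)` for `supp k` in `U`. -/
lemma Rp_mul {k : C(X, ℂ)} (hk : tsupport ⇑k ⊆ U) : Rp β β' γ U * γ k = γ k := by
  ext ξ
  have h : γ k ξ ∈ Nn β β' γ U := Submodule.le_topologicalClosure _ (Submodule.subset_span
    ⟨1, ⟨fun u => Commute.one_left _, fun u => Commute.one_left _⟩, k, hk, ξ, rfl⟩)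
  rw [mul_ap]
  exact Submodule.starProjection_eq_self_iff.2 h

end proj

/-! ### Lemma L -/

section lem

variable {X Y K : Type*} [TopologicalSpace X] [CompactSpace X] [T2Space X]
  [TopologicalSpace Y] [CompactSpace Y] [T2Space Y]
  [NormedAddCommGroup K] [InnerProductSpace ℂ K] [CompleteSpace K]

lemma isClosed_flip {X Y : Type*} [TopologicalSpace X] [TopologicalSpace Y] {I : X → Y → Prop}
    (h : IsClosed {p : X × Y | I p.1 p.2}) : IsClosed {p : Y × X | I p.2 p.1} :=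
  h.preimage (by fun_prop : Continuous fun p : Y × X => (p.2, p.1))

/-- **LEMMA L.** `β` a point, `γ` a neighbour, `μ` their line, `ν` another line through `β`; `R U`
projections which commute with `β`, `ν` and localise `γ`.  An operator which commutes with `ν` and
with all `R U` commutes with `β`. -/
theorem lemL {Inc : X → Y → Prop} {Perp : X → X → Prop} {PL : X → Y → Prop} {LL : Y → Y → Prop}
    (hInc : IsClosed {p : X × Y | Inc p.1 p.2}) (hPerp : IsClosed {p : X × X | Perp p.1 p.2})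
    (hPL : IsClosed {p : X × Y | PL p.1 p.2})
    (g2 : ∀ x x' z n, ¬ PL z n → Perp x z → Perp x' z → Inc x n → Inc x' n → x = x')
    (g3 : ∀ x z n₁ n₂, x ≠ z → Inc x n₁ → Inc x n₂ → Inc z n₂ → PL z n₁ → LL n₁ n₂)
    (β γ : C(X, ℂ) →⋆ₐ[ℂ] (K →L[ℂ] K)) (ν μ : C(Y, ℂ) →⋆ₐ[ℂ] (K →L[ℂ] K))
    (cβγ : ∀ u v, Commute (β u) (γ v)) (cβν : ∀ u g, Commute (β u) (ν g))
    (cβμ : ∀ u g, Commute (β u) (μ g)) (cγμ : ∀ u g, Commute (γ u) (μ g))
    (iβν : ∀ u g, Nin Inc u g → β u * ν g = 0) (iβμ : ∀ u g, Nin Inc u g → β u * μ g = 0)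
    (iγμ : ∀ u g, Nin Inc u g → γ u * μ g = 0) (pβγ : ∀ u k, Nin Perp u k → β u * γ k = 0)
    (agr : ∀ ξ, (∀ f, β f ξ = γ f ξ) → ξ = 0)
    (agrL : ∀ η, (∀ g h, Nin LL g h → μ h (ν g η) = 0) → η = 0)
    (R : Set X → K →L[ℂ] K) (r1 : ∀ U u, Commute (β u) (R U)) (r2 : ∀ U g, Commute (ν g) (R U))
    (r3 : ∀ U (k : C(X, ℂ)), tsupport ⇑k ⊆ U → R U * γ k = γ k)
    (r4 : ∀ U u, (∀ k : C(X, ℂ), tsupport ⇑k ⊆ U → β u * γ k = 0) → β u * R U = 0)
    (W : K →L[ℂ] K) (w1 : ∀ g, Commute W (ν g)) (w2 : ∀ U, Commute W (R U)) (u : C(X, ℂ)) :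
    Commute W (β u) := by
  have hInc' := isClosed_flip hInc
  have hPerp' := isClosed_flip hPerp
  have stepA : ∀ a b : C(X, ℂ), Disjoint (tsupport ⇑a) (tsupport ⇑b) →
      ∀ (g : C(Y, ℂ)) (k : C(X, ℂ)), Nin PL k g → β a * W * β b * ν g * γ k = 0 := by
    intro a b hab g k hkg
    refine two_ind (A := K →L[ℂ] K) (S₁ := tsupport ⇑g) (S₂ := tsupport ⇑k)
      (fun g k => β a * W * β b * ν g * γ k)
      (fun u' u'' a' => by simp only [map_add, add_mul, mul_add])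
      (fun u' a' a'' => by simp only [mul_add, map_add, add_mul])
      (isClosed_tsupport _).isCompact (isClosed_tsupport _).isCompact
      (fun n hn z hz => ?_) g k subset_rfl subset_rfl
    have hzn : ¬ PL z n := hkg z hz n hn
    by_cases hc : ∀ x ∈ tsupport ⇑a, Inc x n → Perp x z → False
    · obtain ⟨a₁, a₂, ha, O, V, hO, hnO, hV, hzV, e1, e2⟩ :=
        split_inc (I₁ := fun n x => Inc x n) (I₂ := fun z x => Perp x z) hInc' hPerp' a hc
      refine ⟨O, V, hO, hnO, hV, hzV, fun g' k' hg' hk' => ?_⟩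
      have f1 : β a₁ * ν g' = 0 := iβν _ _ fun x hx n hn => e1 _ hg' n hn x hx
      have f2 : β a₂ * R V = 0 := r4 _ _ fun k hk => pβγ _ _ fun x hx z hz => e2 _ hk z hz x hx
      have h1 : β a₁ * W * β b * ν g' * γ k' = 0 := by
        have : β a₁ * W * β b * ν g' = β a₁ * ν g' * (W * β b) := by
          rw [mul_assoc (β a₁ * W), (cβν b g').eq, ← mul_assoc, mul_assoc (β a₁), (w1 g').eq]
          simp only [mul_assoc]
        rw [this, f1, zero_mul, zero_mul]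
      have h2 : β a₂ * W * β b * ν g' * γ k' = 0 := by
        have : β a₂ * W * β b * ν g' * γ k' = β a₂ * R V * (W * β b * ν g' * γ k') := by
          have c1 : Commute (W * β b * ν g') (R V) :=
            ((w2 V).mul_left (r1 V b)).mul_left (r2 V g')
          calc β a₂ * W * β b * ν g' * γ k'
              = β a₂ * ((W * β b * ν g') * (R V * γ k')) := by
                rw [r3 V k' hk']; simp only [mul_assoc]
            _ = β a₂ * ((W * β b * ν g') * R V * γ k') := by simp only [mul_assoc]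
            _ = β a₂ * R V * (W * β b * ν g' * γ k') := by
                rw [c1.eq]; simp only [mul_assoc]
        rw [this, f2, zero_mul]
      rw [ha, map_add, add_mul, add_mul, add_mul, add_mul, h1, h2, add_zero]
    · push Not at hc
      obtain ⟨x₀, hx₀, hn0, hz0, -⟩ := hc
      have hb : ∀ x ∈ tsupport ⇑b, Inc x n → Perp x z → False := by
        intro x hx h3 h4
        rw [g2 x x₀ z n hzn h4 hz0 h3 hn0] at hx
        exact disjoint_left.1 hab hx₀ hx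
      obtain ⟨b₁, b₂, hb', O, V, hO, hnO, hV, hzV, e1, e2⟩ :=
        split_inc (I₁ := fun n x => Inc x n) (I₂ := fun z x => Perp x z) hInc' hPerp' b hb
      refine ⟨O, V, hO, hnO, hV, hzV, fun g' k' hg' hk' => ?_⟩
      have f1 : β b₁ * ν g' = 0 := iβν _ _ fun x hx n hn => e1 _ hg' n hn x hx
      have f2 : β b₂ * γ k' = 0 := pβγ _ _ fun x hx z hz => e2 _ hk' z hz x hx
      have h1 : β a * W * β b₁ * ν g' * γ k' = 0 := by
        rw [mul_assoc (β a * W), f1, mul_zero, zero_mul]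
      have h2 : β a * W * β b₂ * ν g' * γ k' = 0 := by
        rw [mul_assoc (β a * W), (cβν b₂ g').eq, ← mul_assoc, mul_assoc (β a * W * ν g'), f2,
          mul_zero]
      rw [hb', map_add, mul_add, add_mul, add_mul, h1, h2, add_zero]
  have main : ∀ a b : C(X, ℂ), Disjoint (tsupport ⇑a) (tsupport ⇑b) → β a * W * β b = 0 := by
    intro a b hab
    have stepB : ∀ (g : C(Y, ℂ)) (k : C(X, ℂ)), Nin PL k g →
        γ k * ν g * star (β a * W * β b) = 0 := by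
      intro g k hkg
      have h1 := stepA a b hab (star g) (star k) (by
        intro z hz n hn
        rw [ts_star] at hz hn
        exact hkg z hz n hn)
      have h2 := congrArg star h1
      rw [star_mul, star_mul, star_zero, ← map_star, ← map_star, star_star, star_star] at h2
      rw [mul_assoc]; exact h2
    set S := star (β a * W * β b) with hS
    have stepC : ∀ (g h : C(Y, ℂ)), Nin LL g h → μ h * ν g * S = 0 := by
      intro g h hgh
      refine tot_left β γ agr _ fun f k hfk => ?_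
      refine two_ind (A := K →L[ℂ] K) (S₁ := tsupport ⇑f) (S₂ := tsupport ⇑k)
        (fun f k => γ k * β f * (μ h * ν g * S))
        (fun u' u'' a' => by simp only [map_add, add_mul, mul_add])
        (fun u' a' a'' => by simp only [map_add, add_mul])
        (isClosed_tsupport _).isCompact (isClosed_tsupport _).isCompact
        (fun x hx z hz => ?_) f k subset_rfl subset_rfl
      have hxz : x ≠ z := fun e => disjoint_left.1 hfk hx (e ▸ hz)
      by_cases hc : ∀ n ∈ tsupport ⇑h, Inc x n → Inc z n → False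
      · obtain ⟨h₁, h₂, hh, O, V, hO, hxO, hV, hzV, e1, e2⟩ := split_inc hInc hInc h hc
        refine ⟨O, V, hO, hxO, hV, hzV, fun f' k' hf' hk' => ?_⟩
        have f1 : β f' * μ h₁ = 0 := iβμ _ _ (e1 _ hf')
        have f2 : γ k' * μ h₂ = 0 := iγμ _ _ (e2 _ hk')
        have h3 : γ k' * β f' * (μ h₁ * ν g * S) = 0 := by
          have : γ k' * β f' * (μ h₁ * ν g * S) = γ k' * (β f' * μ h₁) * (ν g * S) := by
            simp only [mul_assoc]
          rw [this, f1, mul_zero, zero_mul]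
        have h4 : γ k' * β f' * (μ h₂ * ν g * S) = 0 := by
          have : γ k' * β f' * (μ h₂ * ν g * S) = β f' * (γ k' * μ h₂) * (ν g * S) := by
            rw [← (cβγ f' k').eq]; simp only [mul_assoc]
          rw [this, f2, mul_zero, zero_mul]
        rw [hh, map_add, add_mul, add_mul, mul_add, h3, h4, add_zero]
      · push Not at hc
        obtain ⟨n₂, hn₂, hxn₂, hzn₂, -⟩ := hc
        have hg : ∀ n ∈ tsupport ⇑g, Inc x n → PL z n → False := by
          intro n hn h3 h4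
          exact hgh n hn n₂ hn₂ (g3 x z n n₂ hxz h3 hxn₂ hzn₂ h4)
        obtain ⟨g₁, g₂, hg', O, V, hO, hxO, hV, hzV, e1, e2⟩ := split_inc hInc hPL g hg
        refine ⟨O, V, hO, hxO, hV, hzV, fun f' k' hf' hk' => ?_⟩
        have f1 : β f' * ν g₁ = 0 := iβν _ _ (e1 _ hf')
        have f2 : γ k' * ν g₂ * S = 0 := stepB _ _ (e2 _ hk')
        have h3 : γ k' * β f' * (μ h * ν g₁ * S) = 0 := by
          have : γ k' * β f' * (μ h * ν g₁ * S) = γ k' * μ h * (β f' * ν g₁) * S := by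
            calc γ k' * β f' * (μ h * ν g₁ * S) = γ k' * (β f' * μ h) * (ν g₁ * S) := by
                  simp only [mul_assoc]
              _ = _ := by rw [(cβμ f' h).eq]; simp only [mul_assoc]
          rw [this, f1, mul_zero, zero_mul]
        have h4 : γ k' * β f' * (μ h * ν g₂ * S) = 0 := by
          have : γ k' * β f' * (μ h * ν g₂ * S) = β f' * μ h * (γ k' * ν g₂ * S) := by
            calc γ k' * β f' * (μ h * ν g₂ * S) = (γ k' * β f') * μ h * (ν g₂ * S) := by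
                  simp only [mul_assoc]
              _ = β f' * (γ k' * μ h) * (ν g₂ * S) := by
                  rw [← (cβγ f' k').eq]; simp only [mul_assoc]
              _ = _ := by rw [(cγμ k' h).eq]; simp only [mul_assoc]
          rw [this, f2, mul_zero]
        rw [hg', map_add, mul_add, add_mul, mul_add, h3, h4, add_zero]
    have hS0 : S = 0 := by
      ext η
      refine agrL (S η) fun g h hgh => ?_
      have := congrArg (fun T : K →L[ℂ] K => T η) (stepC g h hgh)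
      simpa [mul_ap] using this
    have := congrArg star hS0
    rwa [hS, star_star, star_zero] at this
  exact loc_op β β W (fun a b hab => main a b hab) u

end lem

/-! ### The theorem -/

section main

variable {X Y K : Type*} [TopologicalSpace X] [CompactSpace X] [T2Space X]
  [TopologicalSpace Y] [CompactSpace Y] [T2Space Y]
  [NormedAddCommGroup K] [InnerProductSpace ℂ K] [CompleteSpace K]

/-- A point `b` on a line `l`: the values commute and are incident. -/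
structure Flg (Inc : X → Y → Prop) (b : C(X, ℂ) →⋆ₐ[ℂ] (K →L[ℂ] K))
    (l : C(Y, ℂ) →⋆ₐ[ℂ] (K →L[ℂ] K)) : Prop where
  com : ∀ u g, Commute (b u) (l g)
  inc : ∀ u g, Nin Inc u g → b u * l g = 0

/-- Two collinear points: the values commute and are nowhere equal. -/
structure Col (b c : C(X, ℂ) →⋆ₐ[ℂ] (K →L[ℂ] K)) : Prop where
  com : ∀ u v, Commute (b u) (c v)
  agr : ∀ ξ, (∀ f, b f ξ = c f ξ) → ξ = 0

lemma Col.agr' {b c : C(X, ℂ) →⋆ₐ[ℂ] (K →L[ℂ] K)} (h : Col b c) :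
    ∀ ξ, (∀ f, c f ξ = b f ξ) → ξ = 0 := fun ξ hξ => h.agr ξ fun f => (hξ f).symm

/-- The values of two points on a line lie on a common line of the target: with
`Perp = collinear or equal` the perpendicularity input of the theorem. -/
lemma perp_of_line {Inc : X → Y → Prop} (hInc : IsClosed {p : X × Y | Inc p.1 p.2})
    {b c : C(X, ℂ) →⋆ₐ[ℂ] (K →L[ℂ] K)} {l : C(Y, ℂ) →⋆ₐ[ℂ] (K →L[ℂ] K)}
    (h1 : Flg Inc b l) (h2 : Flg Inc c l) (u k : C(X, ℂ))
    (h : Nin (fun x z => ∃ n, Inc x n ∧ Inc z n) u k) : b u * c k = 0 := by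
  refine two_ind (A := K →L[ℂ] K) (S₁ := tsupport ⇑u) (S₂ := tsupport ⇑k)
    (fun u k => b u * c k)
    (fun u' u'' a' => by simp only [map_add, add_mul])
    (fun u' a' a'' => by simp only [map_add, mul_add])
    (isClosed_tsupport _).isCompact (isClosed_tsupport _).isCompact
    (fun x hx z hz => ?_) u k subset_rfl subset_rfl
  obtain ⟨h₁, h₂, hh, O, V, hO, hxO, hV, hzV, e1, e2⟩ :=
    split_inc hInc hInc (x := x) (y := z) (1 : C(Y, ℂ)) fun n _ h3 h4 => h x hx z hz ⟨n, h3, h4⟩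
  refine ⟨O, V, hO, hxO, hV, hzV, fun u' k' hu' hk' => ?_⟩
  have f1 : b u' * l h₁ = 0 := h1.inc _ _ (e1 _ hu')
  have f2 : c k' * l h₂ = 0 := h2.inc _ _ (e2 _ hk')
  calc b u' * c k' = b u' * l 1 * c k' := by rw [map_one, mul_one]
    _ = b u' * l h₁ * c k' + b u' * (l h₂ * c k') := by
        rw [hh, map_add, mul_add, add_mul]; simp only [mul_assoc]
    _ = 0 := by rw [f1, ← (h2.com k' h₂).eq, f2, zero_mul, mul_zero, add_zero]

/-- The projections `Rp β β' γ U` commute with the two lines through `δ`. -/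
lemma comm_Rp_line {Inc : X → Y → Prop} (hInc : IsClosed {p : X × Y | Inc p.1 p.2})
    (g1 : ∀ x x' y y', x ≠ x' → Inc x y → Inc x' y → Inc x y' → Inc x' y' → y = y')
    {β β' δ γ : C(X, ℂ) →⋆ₐ[ℂ] (K →L[ℂ] K)} {ν ν' : C(Y, ℂ) →⋆ₐ[ℂ] (K →L[ℂ] K)}
    (c₁ : Col β δ) (c₂ : Col β' δ) (c₃ : Col β γ) (c₄ : Col β' γ)
    (f₁ : Flg Inc β ν) (f₂ : Flg Inc δ ν) (f₃ : Flg Inc β' ν') (f₄ : Flg Inc δ ν') (U : Set X) :
    (∀ g, Commute (ν g) (Rp β β' γ U)) ∧ ∀ g, Commute (ν' g) (Rp β β' γ U) := by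
  have a₁ : ∀ u, Commute (β u) (Rp β β' γ U) := fun u =>
    comm_Rp_left (fun u v => (c₃.com v u).symm) u
  have a₂ : ∀ u, Commute (β' u) (Rp β β' γ U) := fun u =>
    comm_Rp_right (fun u v => (c₄.com v u).symm) u
  have a₃ : ∀ u, Commute (δ u) (Rp β β' γ U) := fun u => by
    have key : ∀ u, Com β β' (δ u) := fun u =>
      ⟨fun v => (c₁.com v u).symm, fun v => (c₂.com v u).symm⟩
    exact comm_Rp_com (key u) (by rw [← map_star]; exact key (star u))
  exact ⟨fun g => (join_comm hInc g1 β δ ν c₁.com f₁.com f₂.com f₁.inc f₂.inc c₁.agr _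
      (fun u => (a₁ u).symm) (fun u => (a₃ u).symm) g).symm,
    fun g => (join_comm hInc g1 β' δ ν' c₂.com f₃.com f₄.com f₃.inc f₄.inc c₂.agr _
      (fun u => (a₂ u).symm) (fun u => (a₃ u).symm) g).symm⟩

/-- **A POINT AND A LINE AT DISTANCE THREE COMMUTE**, polar space form: the line `ν = bc` and the
point `β'`.  `β, β'` opposite; `δ, γ` two common neighbours (points `c`, `c'`); `ν' = b'c`,
`μ' = b'c'`. -/
theorem dist3_comm {Inc : X → Y → Prop} {Perp : X → X → Prop} {PL : X → Y → Prop}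
    {LL : Y → Y → Prop}
    (hInc : IsClosed {p : X × Y | Inc p.1 p.2}) (hPerp : IsClosed {p : X × X | Perp p.1 p.2})
    (hPL : IsClosed {p : X × Y | PL p.1 p.2})
    (g1 : ∀ x x' y y', x ≠ x' → Inc x y → Inc x' y → Inc x y' → Inc x' y' → y = y')
    (g2 : ∀ x x' z n, ¬ PL z n → Perp x z → Perp x' z → Inc x n → Inc x' n → x = x')
    (g3 : ∀ x z n₁ n₂, x ≠ z → Inc x n₁ → Inc x n₂ → Inc z n₂ → PL z n₁ → LL n₁ n₂)
    (β β' δ γ : C(X, ℂ) →⋆ₐ[ℂ] (K →L[ℂ] K)) (ν ν' μ' : C(Y, ℂ) →⋆ₐ[ℂ] (K →L[ℂ] K))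
    (c₁ : Col β δ) (c₂ : Col β' δ) (c₃ : Col β γ) (c₄ : Col β' γ)
    (f₁ : Flg Inc β ν) (f₂ : Flg Inc δ ν) (f₃ : Flg Inc β' ν') (f₄ : Flg Inc δ ν')
    (f₇ : Flg Inc β' μ') (f₈ : Flg Inc γ μ') (hν : ∀ g h, Commute (ν g) (ν' h))
    (p₂ : ∀ u k, Nin Perp u k → β' u * γ k = 0)
    (l₂ : ∀ η, (∀ g h, Nin LL g h → μ' h (ν' g η) = 0) → η = 0)
    (g : C(Y, ℂ)) (v : C(X, ℂ)) : Commute (ν g) (β' v) :=
  lemL hInc hPerp hPL g2 g3 β' γ ν' μ' c₄.com f₃.com f₇.com f₈.com f₃.inc f₇.inc f₈.inc p₂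
    c₄.agr l₂ (Rp β β' γ) (fun U u => comm_Rp_right (fun u v => (c₄.com v u).symm) u)
    (fun U g => (comm_Rp_line hInc g1 c₁ c₂ c₃ c₄ f₁ f₂ f₃ f₄ U).2 g)
    (fun U k hk => Rp_mul hk) (fun U u h => mul_Rp_right h)
    (ν g) (fun h => hν g h) (fun U => (comm_Rp_line hInc g1 c₁ c₂ c₃ c₄ f₁ f₂ f₃ f₄ U).1 g) v

/-- **OPPOSITE POINTS COMMUTE**, polar space form.  `β, β'` opposite; `δ, γ` two common
neighbours; `ν = bc`, `ν' = b'c` (`c` the point of `δ`), `μ = bc'`, `μ' = b'c'` (`c'` the point of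
`γ`). -/
theorem opp_comm {Inc : X → Y → Prop} {Perp : X → X → Prop} {PL : X → Y → Prop}
    {LL : Y → Y → Prop}
    (hInc : IsClosed {p : X × Y | Inc p.1 p.2}) (hPerp : IsClosed {p : X × X | Perp p.1 p.2})
    (hPL : IsClosed {p : X × Y | PL p.1 p.2})
    (g1 : ∀ x x' y y', x ≠ x' → Inc x y → Inc x' y → Inc x y' → Inc x' y' → y = y')
    (g2 : ∀ x x' z n, ¬ PL z n → Perp x z → Perp x' z → Inc x n → Inc x' n → x = x')
    (g3 : ∀ x z n₁ n₂, x ≠ z → Inc x n₁ → Inc x n₂ → Inc z n₂ → PL z n₁ → LL n₁ n₂)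
    (β β' δ γ : C(X, ℂ) →⋆ₐ[ℂ] (K →L[ℂ] K)) (ν ν' μ μ' : C(Y, ℂ) →⋆ₐ[ℂ] (K →L[ℂ] K))
    (c₁ : Col β δ) (c₂ : Col β' δ) (c₃ : Col β γ) (c₄ : Col β' γ)
    (f₁ : Flg Inc β ν) (f₂ : Flg Inc δ ν) (f₃ : Flg Inc β' ν') (f₄ : Flg Inc δ ν')
    (f₅ : Flg Inc β μ) (f₆ : Flg Inc γ μ) (f₇ : Flg Inc β' μ') (f₈ : Flg Inc γ μ')
    (hν : ∀ g h, Commute (ν g) (ν' h))
    (p₁ : ∀ u k, Nin Perp u k → β u * γ k = 0) (p₂ : ∀ u k, Nin Perp u k → β' u * γ k = 0)
    (l₁ : ∀ η, (∀ g h, Nin LL g h → μ h (ν g η) = 0) → η = 0)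
    (l₂ : ∀ η, (∀ g h, Nin LL g h → μ' h (ν' g η) = 0) → η = 0)
    (u v : C(X, ℂ)) : Commute (β u) (β' v) := by
  have b₁ : ∀ g v, Commute (ν g) (β' v) :=
    dist3_comm hInc hPerp hPL g1 g2 g3 β β' δ γ ν ν' μ' c₁ c₂ c₃ c₄ f₁ f₂ f₃ f₄ f₇ f₈ hν p₂ l₂
  exact (lemL hInc hPerp hPL g2 g3 β γ ν μ c₃.com f₁.com f₅.com f₆.com f₁.inc f₅.inc f₆.inc p₁
    c₃.agr l₁ (Rp β β' γ) (fun U u => comm_Rp_left (fun u v => (c₃.com v u).symm) u)
    (fun U g => (comm_Rp_line hInc g1 c₁ c₂ c₃ c₄ f₁ f₂ f₃ f₄ U).1 g)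
    (fun U k hk => Rp_mul hk) (fun U u h => mul_Rp_left h)
    (β' v) (fun h => (b₁ h v).symm)
    (fun U => comm_Rp_right (fun u v => (c₄.com v u).symm) v) u).symm

lemma isClosed_col {Inc : X → Y → Prop} (hInc : IsClosed {p : X × Y | Inc p.1 p.2}) :
    IsClosed {p : X × X | ∃ n, Inc p.1 n ∧ Inc p.2 n} := by
  have h1 : IsClosed {q : (X × X) × Y | Inc q.1.1 q.2 ∧ Inc q.1.2 q.2} :=
    (hInc.preimage (by fun_prop : Continuous fun q : (X × X) × Y => (q.1.1, q.2))).inter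
      (hInc.preimage (by fun_prop : Continuous fun q : (X × X) × Y => (q.1.2, q.2)))
  have h2 := isClosedMap_fst_of_compactSpace (X := X × X) (Y := Y) _ h1
  convert h2 using 1
  ext p
  simp

/-- **A POINT AND A LINE AT DISTANCE THREE COMMUTE**, generalised quadrangle form: the line
`ν = bc` and the point `β'`. -/
theorem dist3_comm_quad {Inc : X → Y → Prop}
    (hInc : IsClosed {p : X × Y | Inc p.1 p.2})
    (g1 : ∀ x x' y y', x ≠ x' → Inc x y → Inc x' y → Inc x y' → Inc x' y' → y = y')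
    (g2 : ∀ x x' z n m m', ¬ Inc z n → Inc x m → Inc z m → Inc x' m' → Inc z m' → Inc x n →
      Inc x' n → x = x')
    (β β' δ γ : C(X, ℂ) →⋆ₐ[ℂ] (K →L[ℂ] K)) (ν ν' μ' : C(Y, ℂ) →⋆ₐ[ℂ] (K →L[ℂ] K))
    (c₁ : Col β δ) (c₂ : Col β' δ) (c₃ : Col β γ) (c₄ : Col β' γ)
    (f₁ : Flg Inc β ν) (f₂ : Flg Inc δ ν) (f₃ : Flg Inc β' ν') (f₄ : Flg Inc δ ν')
    (f₇ : Flg Inc β' μ') (f₈ : Flg Inc γ μ') (hν : ∀ g h, Commute (ν g) (ν' h))
    (l₂ : ∀ η, (∀ g, ν' g η = μ' g η) → η = 0)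
    (g : C(Y, ℂ)) (v : C(X, ℂ)) : Commute (ν g) (β' v) := by
  refine dist3_comm (Perp := fun x z => ∃ n, Inc x n ∧ Inc z n) (PL := Inc) (LL := Eq)
    hInc (isClosed_col hInc) hInc g1 ?_ ?_ β β' δ γ ν ν' μ' c₁ c₂ c₃ c₄ f₁ f₂ f₃ f₄ f₇ f₈ hν
    (fun u k h => perp_of_line hInc f₇ f₈ u k h) (fun η h => ?_) g v
  · rintro x x' z n hzn ⟨m, h1, h2⟩ ⟨m', h3, h4⟩ h5 h6
    exact g2 x x' z n m m' hzn h1 h2 h3 h4 h5 h6
  · intro x z n₁ n₂ hxz h1 h2 h3 h4
    exact g1 x z n₁ n₂ hxz h1 h4 h2 h3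
  · exact tot_vec ν' μ' l₂ η fun a b hab => h a b fun x hx y hy e =>
      disjoint_left.1 hab hx (e ▸ hy)

/-- **OPPOSITE POINTS COMMUTE**, generalised quadrangle form. -/
theorem opp_comm_quad {Inc : X → Y → Prop}
    (hInc : IsClosed {p : X × Y | Inc p.1 p.2})
    (g1 : ∀ x x' y y', x ≠ x' → Inc x y → Inc x' y → Inc x y' → Inc x' y' → y = y')
    (g2 : ∀ x x' z n m m', ¬ Inc z n → Inc x m → Inc z m → Inc x' m' → Inc z m' → Inc x n →
      Inc x' n → x = x')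
    (β β' δ γ : C(X, ℂ) →⋆ₐ[ℂ] (K →L[ℂ] K)) (ν ν' μ μ' : C(Y, ℂ) →⋆ₐ[ℂ] (K →L[ℂ] K))
    (c₁ : Col β δ) (c₂ : Col β' δ) (c₃ : Col β γ) (c₄ : Col β' γ)
    (f₁ : Flg Inc β ν) (f₂ : Flg Inc δ ν) (f₃ : Flg Inc β' ν') (f₄ : Flg Inc δ ν')
    (f₅ : Flg Inc β μ) (f₆ : Flg Inc γ μ) (f₇ : Flg Inc β' μ') (f₈ : Flg Inc γ μ')
    (hν : ∀ g h, Commute (ν g) (ν' h))
    (l₁ : ∀ η, (∀ g, ν g η = μ g η) → η = 0) (l₂ : ∀ η, (∀ g, ν' g η = μ' g η) → η = 0)
    (u v : C(X, ℂ)) : Commute (β u) (β' v) := by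
  refine opp_comm (Perp := fun x z => ∃ n, Inc x n ∧ Inc z n) (PL := Inc) (LL := Eq)
    hInc (isClosed_col hInc) hInc g1 ?_ ?_ β β' δ γ ν ν' μ μ' c₁ c₂ c₃ c₄ f₁ f₂ f₃ f₄ f₅ f₆ f₇ f₈ hν
    (fun u k h => perp_of_line hInc f₅ f₆ u k h) (fun u k h => perp_of_line hInc f₇ f₈ u k h)
    (fun η h => ?_) (fun η h => ?_) u v
  · rintro x x' z n hzn ⟨m, h1, h2⟩ ⟨m', h3, h4⟩ h5 h6
    exact g2 x x' z n m m' hzn h1 h2 h3 h4 h5 h6
  · intro x z n₁ n₂ hxz h1 h2 h3 h4
    exact g1 x z n₁ n₂ hxz h1 h4 h2 h3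
  · exact tot_vec ν μ l₁ η fun a b hab => h a b fun x hx y hy e =>
      disjoint_left.1 hab hx (e ▸ hy)
  · exact tot_vec ν' μ' l₂ η fun a b hab => h a b fun x hx y hy e =>
      disjoint_left.1 hab hx (e ▸ hy)

end main

end Vale.Agent.P092.H831
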