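import Vale.Agent.P092.H831.Quad

/-!
P092, Team P (helper831): THE ONE-LEG WRAPPER, GENERALISED QUADRANGLES.

A family of calculi of points `β p` and lines `ν l`, indexed by the points and lines of a source
quadrangle (no topology), values in a target quadrangle (compact, closed incidence).  If collinear
points and concurrent lines commute and are nowhere equal, and flags commute and are incident, then
ALL calculi commute: points with points, lines with lines, points with lines.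
-/

set_option linter.all false

namespace Vale.Agent.P092.H831

open Set Topology
open Vale.Agent.P092.H232 (Nin)

/-- The source quadrangle. -/
structure SQ {P L : Type*} (I : P → L → Prop) : Prop where
  uniq : ∀ p p' l l', p ≠ p' → I p l → I p' l → I p l' → I p' l' → l = l'
  proj : ∀ p l, ∃ q m, I q l ∧ I p m ∧ I q m
  tri : ∀ p l q q' m m', ¬ I p l → I q l → I p m → I q m → I q' l → I p m' → I q' m' → q = q'
  two : ∀ p, ∃ l l', l ≠ l' ∧ I p l ∧ I p l'
  two' : ∀ l, ∃ p p', p ≠ p' ∧ I p l ∧ I p' l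

/-- The dual source. -/
lemma SQ.flip {P L : Type*} {I : P → L → Prop} (h : SQ I) : SQ (fun l p => I p l) where
  uniq l l' p p' hll h1 h2 h3 h4 := by
    by_contra hpp
    exact hll (h.uniq p p' l l' hpp h1 h3 h2 h4)
  proj l p := by
    obtain ⟨q, m, h1, h2, h3⟩ := h.proj p l
    exact ⟨m, q, h2, h1, h3⟩
  tri l p m m' q q' hn h1 h2 h3 h4 h5 h6 := by
    have e : q = q' := h.tri p l q q' m m' hn h2 h1 h3 h5 h4 h6
    subst e
    have hpq : p ≠ q := fun e => hn (e ▸ h2)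
    exact h.uniq p q m m' hpq h1 h3 h4 h6
  two l := h.two' l
  two' p := h.two p

/-- The target quadrangle. -/
structure TQ {X Y : Type*} [TopologicalSpace X] [TopologicalSpace Y] (Inc : X → Y → Prop) :
    Prop where
  closed : IsClosed {p : X × Y | Inc p.1 p.2}
  uniq : ∀ x x' y y', x ≠ x' → Inc x y → Inc x' y → Inc x y' → Inc x' y' → y = y'
  tri : ∀ x x' z n m m', ¬ Inc z n → Inc x m → Inc z m → Inc x' m' → Inc z m' → Inc x n →
    Inc x' n → x = x'

/-- The dual target. -/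
lemma TQ.flip {X Y : Type*} [TopologicalSpace X] [TopologicalSpace Y] {Inc : X → Y → Prop}
    (h : TQ Inc) : TQ (fun y x => Inc x y) where
  closed := isClosed_flip h.closed
  uniq l l' p p' hll h1 h2 h3 h4 := by
    by_contra hpp
    exact hll (h.uniq p p' l l' hpp h1 h3 h2 h4)
  tri n n' m z x x' hz h1 h2 h3 h4 h5 h6 := by
    -- lines `n, n'` through `z`, both meet the line `m`, which does not contain `z`
    have e : x = x' := h.tri x x' z m n n' hz h1 h5 h3 h6 h2 h4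
    subst e
    have hzx : z ≠ x := fun e => hz (e ▸ h2)
    exact h.uniq z x n n' hzx h5 h1 h6 h3

section fam

variable {P L X Y K : Type*} [TopologicalSpace X] [CompactSpace X] [T2Space X]
  [TopologicalSpace Y] [CompactSpace Y] [T2Space Y]
  [NormedAddCommGroup K] [InnerProductSpace ℂ K] [CompleteSpace K]

/-- The calculi of one leg. -/
structure Fam (Inc : X → Y → Prop) (I : P → L → Prop) (β : P → C(X, ℂ) →⋆ₐ[ℂ] (K →L[ℂ] K))
    (ν : L → C(Y, ℂ) →⋆ₐ[ℂ] (K →L[ℂ] K)) : Prop where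
  flg : ∀ p l, I p l → Flg Inc (β p) (ν l)
  col : ∀ p p' l, p ≠ p' → I p l → I p' l → Col (β p) (β p')
  cop : ∀ l l' p, l ≠ l' → I p l → I p l' → Col (ν l) (ν l')

lemma Flg.flip {Inc : X → Y → Prop} {b : C(X, ℂ) →⋆ₐ[ℂ] (K →L[ℂ] K)}
    {l : C(Y, ℂ) →⋆ₐ[ℂ] (K →L[ℂ] K)} (h : Flg Inc b l) : Flg (fun y x => Inc x y) l b where
  com u g := (h.com g u).symm
  inc u g hn := by
    rw [← (h.com g u).eq]
    exact h.inc g u fun x hx y hy hxy => hn y hy x hx hxy

lemma Fam.flip {Inc : X → Y → Prop} {I : P → L → Prop} {β : P → C(X, ℂ) →⋆ₐ[ℂ] (K →L[ℂ] K)}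
    {ν : L → C(Y, ℂ) →⋆ₐ[ℂ] (K →L[ℂ] K)} (h : Fam Inc I β ν) :
    Fam (fun y x => Inc x y) (fun l p => I p l) ν β where
  flg l p hi := (h.flg p l hi).flip
  col l l' p hn h1 h2 := h.cop l l' p hn h1 h2
  cop p p' l hn h1 h2 := h.col p p' l hn h1 h2

variable {Inc : X → Y → Prop} {I : P → L → Prop} {β : P → C(X, ℂ) →⋆ₐ[ℂ] (K →L[ℂ] K)}
  {ν : L → C(Y, ℂ) →⋆ₐ[ℂ] (K →L[ℂ] K)}

/-- The `*`-homomorphism commutes with itself. -/
lemma comm_self (b : C(X, ℂ) →⋆ₐ[ℂ] (K →L[ℂ] K)) (u v : C(X, ℂ)) : Commute (b u) (b v) := by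
  change b u * b v = b v * b u
  rw [← map_mul, ← map_mul, mul_comm]

/-- Points commute. -/
theorem Fam.pts (hs : SQ I) (ht : TQ Inc) (h : Fam Inc I β ν) (b b' : P) (u v : C(X, ℂ)) :
    Commute (β b u) (β b' v) := by
  by_cases hb : b = b'
  · subst hb; exact comm_self _ u v
  by_cases hcol : ∃ l, I b l ∧ I b' l
  · obtain ⟨l, h1, h2⟩ := hcol
    exact (h.col b b' l hb h1 h2).com u v
  have hopp : ∀ l, I b l → ¬ I b' l := fun l h1 h2 => hcol ⟨l, h1, h2⟩
  obtain ⟨n, m, hnm, bn, bm⟩ := hs.two b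
  obtain ⟨c, n', cn, bn', cn'⟩ := hs.proj b' n
  obtain ⟨c', m', cm, bm', cm'⟩ := hs.proj b' m
  have e1 : b ≠ c := fun e => hopp n' (e ▸ cn') bn'
  have e2 : b' ≠ c := fun e => hopp n bn (e ▸ cn)
  have e3 : b ≠ c' := fun e => hopp m' (e ▸ cm') bm'
  have e4 : b' ≠ c' := fun e => hopp m bm (e ▸ cm)
  have e5 : c ≠ c' := fun e => hnm (hs.uniq b c n m e1 bn cn bm (e ▸ cm))
  have e6 : n ≠ n' := fun e => hopp n bn (e ▸ bn')
  have e7 : n' ≠ m' := fun e =>
    e5 (hs.tri b n' c c' n m (fun h1 => hopp n' h1 bn') cn' bn cn (e ▸ cm') bm cm)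
  exact opp_comm_quad ht.closed ht.uniq ht.tri (β b) (β b') (β c) (β c') (ν n) (ν n') (ν m) (ν m')
    (h.col b c n e1 bn cn) (h.col b' c n' e2 bn' cn') (h.col b c' m e3 bm cm)
    (h.col b' c' m' e4 bm' cm') (h.flg b n bn) (h.flg c n cn) (h.flg b' n' bn') (h.flg c n' cn')
    (h.flg b m bm) (h.flg c' m cm) (h.flg b' m' bm') (h.flg c' m' cm')
    (h.cop n n' c e6 cn cn').com (h.cop n m b hnm bn bm).agr (h.cop n' m' b' e7 bn' bm').agr u v

/-- A point and a line commute. -/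
theorem Fam.mix (hs : SQ I) (ht : TQ Inc) (h : Fam Inc I β ν) (b' : P) (n : L) (v : C(X, ℂ))
    (g : C(Y, ℂ)) : Commute (β b' v) (ν n g) := by
  by_cases hn : I b' n
  · exact (h.flg b' n hn).com v g
  obtain ⟨c, n', cn, bn', cn'⟩ := hs.proj b' n
  obtain ⟨b, hbc, bn⟩ : ∃ b, b ≠ c ∧ I b n := by
    obtain ⟨p, p', hpp, h1, h2⟩ := hs.two' n
    by_cases hp : p = c
    · exact ⟨p', fun e => hpp (hp.trans e.symm), h2⟩
    · exact ⟨p, hp, h1⟩
  have hopp : ∀ l, I b l → ¬ I b' l := fun l h1 h2 =>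
    hbc (hs.tri b' n c b n' l hn cn bn' cn' bn h2 h1).symm
  obtain ⟨m', hm', bm'⟩ : ∃ m', m' ≠ n' ∧ I b' m' := by
    obtain ⟨l, l', hll, h1, h2⟩ := hs.two b'
    by_cases hl : l = n'
    · exact ⟨l', fun e => hll (hl.trans e.symm), h2⟩
    · exact ⟨l, hl, h1⟩
  obtain ⟨c', m, cm', bm, cm⟩ := hs.proj b m'
  have e1 : b ≠ c := hbc
  have e2 : b' ≠ c := fun e => hn (e ▸ cn)
  have e3 : b ≠ c' := fun e => hopp m' (e ▸ cm') bm'
  have e4 : b' ≠ c' := fun e => hopp m bm (e ▸ cm)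
  have e6 : n ≠ n' := fun e => hn (e ▸ bn')
  exact (dist3_comm_quad ht.closed ht.uniq ht.tri (β b) (β b') (β c) (β c') (ν n) (ν n') (ν m')
    (h.col b c n e1 bn cn) (h.col b' c n' e2 bn' cn') (h.col b c' m e3 bm cm)
    (h.col b' c' m' e4 bm' cm') (h.flg b n bn) (h.flg c n cn) (h.flg b' n' bn') (h.flg c n' cn')
    (h.flg b' m' bm') (h.flg c' m' cm') (h.cop n n' c e6 cn cn').com
    (h.cop n' m' b' hm'.symm bn' bm').agr g v).symm

/-- Lines commute. -/
theorem Fam.lns (hs : SQ I) (ht : TQ Inc) (h : Fam Inc I β ν) (l l' : L) (g g' : C(Y, ℂ)) :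
    Commute (ν l g) (ν l' g') :=
  Fam.pts hs.flip ht.flip h.flip l l' g g'

end fam

end Vale.Agent.P092.H831
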